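import Crest.Agent.X212.Sw21.Fr0
import Crest.Agent.X212.Frd39.Inj
import Crest.Agent.X212.Frd39.CylB
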